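import Vale.Agent.P150.Weak.Crude.Envelope

/-!
Crude moments of squared cumulant norms from the moments of the centred overlaps.
-/

open MeasureTheory Finset

namespace Vale.Agent.P150.Weak.Crude

open Gap

variable {m : ℕ}

lemma continuous_mu (x : Conf m) : Continuous fun q : Mat m × Vec m => mu q.1 q.2 x := by
  simp only [mu, wt, expo]
  refine Continuous.div₀ (by fun_prop) (by fun_prop) fun q =>
    (sum_pos (fun y _ => Real.exp_pos _) univ_nonempty).ne'

lemma continuous_ev_of {F : Mat m × Vec m → Conf m → ℝ} (h : ∀ x, Continuous fun q => F q x) :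
    Continuous fun q : Mat m × Vec m => ev q.1 q.2 (F q) :=
  continuous_finsetSum _ fun x _ => (continuous_mu x).mul (h x)

lemma continuous_csp (i : Fin m) (x : Conf m) :
    Continuous fun q : Mat m × Vec m => csp q.1 q.2 i x :=
  continuous_const.sub (continuous_mg i)

lemma continuous_param (v τ : ℝ) :
    Continuous fun g : Idx m → ℝ => (plJ v g, plU τ g) := by
  refine Continuous.prodMk (continuous_pi fun i => continuous_pi fun j => ?_) (continuous_pi fun i => ?_)
  · unfold plJ sym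
    split_ifs <;> fun_prop
  · unfold plU; fun_prop

lemma integrable_param {F : Mat m × Vec m → ℝ} (hF : Continuous F) {B : ℝ}
    (hB : ∀ q, |F q| ≤ B) (v τ : ℝ) :
    Integrable (fun g : Idx m → ℝ => F (plJ v g, plU τ g)) (gauss (Idx m)) :=
  integrable_gauss_bound (hF.comp (continuous_param v τ)) fun _ => hB _

lemma abs_lin_le (J : Mat m) (u : Vec m) {a : Vec m} (ha : ∀ i, |a i| ≤ 1) (x : Conf m) :
    |∑ i, a i * csp J u i x| ≤ 4 * m := by
  refine (abs_sum_le_sum_abs _ _).trans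
    ((sum_le_sum fun i _ => ?_).trans_eq (by simp [mul_comm] : ∑ _i : Fin m, (4:ℝ) = 4 * m))
  rw [abs_mul]
  exact (mul_le_mul (ha i) (abs_csp_le J u i x) (abs_nonneg _) zero_le_one).trans (by norm_num)

lemma abs_ovl_le (J : Mat m) (u : Vec m) (x y : Conf m) :
    |∑ i, csp J u i x * csp J u i y| ≤ 4 * m := by
  refine (abs_sum_le_sum_abs _ _).trans
    ((sum_le_sum fun i _ => ?_).trans_eq (by simp [mul_comm] : ∑ _i : Fin m, (4:ℝ) = 4 * m))
  rw [abs_mul]
  exact (mul_le_mul (abs_csp_le J u i x) (abs_csp_le J u i y) (abs_nonneg _) two_pos.le).trans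
    (by norm_num)

lemma ovPair_props (p : ℕ) : (Continuous fun q : Mat m × Vec m => ovPair q.1 q.2 p) ∧
    ∀ q : Mat m × Vec m, |ovPair q.1 q.2 p| ≤ (4 * m : ℝ) ^ p := by
  refine ⟨continuous_ev_of fun x => continuous_ev_of fun y => (Continuous.abs ?_).pow p,
    fun q => abs_ev_le fun x => abs_ev_le fun y => ?_⟩
  · exact continuous_finsetSum _ fun i _ => (continuous_csp i x).mul (continuous_csp i y)
  · rw [abs_pow, abs_abs]
    exact pow_le_pow_left₀ (abs_nonneg _) (abs_ovl_le _ _ x y) p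

lemma ovLin_props {a : Mat m × Vec m → Vec m} (hc : ∀ i, Continuous fun q => a q i)
    (ha : ∀ q i, |a q i| ≤ 1) (p : ℕ) :
    (Continuous fun q : Mat m × Vec m => ovLin q.1 q.2 (a q) p) ∧
      ∀ q : Mat m × Vec m, |ovLin q.1 q.2 (a q) p| ≤ (4 * m : ℝ) ^ p := by
  refine ⟨continuous_ev_of fun x => (Continuous.abs ?_).pow p, fun q => abs_ev_le fun x => ?_⟩
  · exact continuous_finsetSum _ fun i _ => (hc i).mul (continuous_csp i x)
  · rw [abs_pow, abs_abs]
    exact pow_le_pow_left₀ (abs_nonneg _) (abs_lin_le _ _ (ha q) x) p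

lemma envM_le_ov (J : Mat m) (u : Vec m) {d : ℕ} (hd : 1 ≤ d) :
    envM J u d ≤ 5 ^ d * (ovPair J u d + 2 * ovLin J u (fun _ => 1) d + 2 * ovLin J u (mg J u) d) := by
  have hW : ∀ x y, env J u x y ^ d ≤ 5 ^ d * (|ovl J u x y| ^ d + |lin J u (fun _ => 1) x| ^ d +
      |lin J u (fun _ => 1) y| ^ d + |lin J u (mg J u) x| ^ d + |lin J u (mg J u) y| ^ d) := by
    intro x y
    obtain ⟨k, rfl⟩ : ∃ k, d = k + 1 := ⟨d - 1, by omega⟩
    set f : Fin 5 → ℝ := ![|ovl J u x y|, |lin J u (fun _ => 1) x|, |lin J u (fun _ => 1) y|,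
      |lin J u (mg J u) x|, |lin J u (mg J u) y|] with hf
    have h := pow_sum_le_card_mul_sum_pow (s := univ) (f := f)
      (fun i _ => by fin_cases i <;> simp [hf]) k
    simp [hf, Fin.sum_univ_five] at h
    refine le_trans h (mul_le_mul_of_nonneg_right (pow_le_pow_right₀ (by norm_num) k.le_succ) ?_)
    positivity
  refine (ev_mono J u fun x => ev_mono J u fun y => hW x y).trans (le_of_eq ?_)
  simp only [ev_smul, ev_add, ev_const]
  simp only [ovPair, ovLin, ovl, lin]
  ring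

/-- Moments of the envelope. -/
lemma pEv_envM_le {b : ℝ} (h : CenterSpec b) : ∃ D : ℝ, 0 ≤ D ∧ ∀ n m d : ℕ, ∀ τ : ℝ,
    0 ≤ τ → 1 ≤ d → 0 < n → m ≤ n →
      Integrable (fun g : Idx m → ℝ => envM (plJ (b ^ 2 / n) g) (plU τ g) d) (gauss (Idx m)) ∧
      pEv b n m τ (fun J u => envM J u d) ≤ (D * √(d * n)) ^ d := by
  obtain ⟨C, hC⟩ := h
  refine ⟨25 * |C|, by positivity, fun n m d τ hτ hd hn hm => ?_⟩
  obtain ⟨h1, h2, h3⟩ := hC n m d τ hτ hd hn hm
  obtain ⟨p1, p1'⟩ := ovPair_props (m := m) d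
  obtain ⟨p2, p2'⟩ := ovLin_props (m := m) (a := fun _ _ => 1) (fun _ => continuous_const)
    (fun _ _ => by simp) d
  obtain ⟨p3, p3'⟩ := ovLin_props (m := m) (a := fun q => mg q.1 q.2) continuous_mg
    (fun q i => abs_mg_le q.1 q.2 i) d
  have i1 := integrable_param p1 p1' (b ^ 2 / n) τ
  have i2 := integrable_param p2 p2' (b ^ 2 / n) τ
  have i3 := integrable_param p3 p3' (b ^ 2 / n) τ
  have hint : Integrable (fun g : Idx m → ℝ => envM (plJ (b ^ 2 / n) g) (plU τ g) d)
      (gauss (Idx m)) := by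
    refine integrable_param (F := fun q => envM q.1 q.2 d) ?_
      (B := (20 * m : ℝ) ^ d) (fun q => abs_ev_le fun x => abs_ev_le fun y => ?_) _ τ
    · refine continuous_ev_of fun x => continuous_ev_of fun y => Continuous.pow ?_ d
      have c1 : ∀ z, Continuous fun q : Mat m × Vec m =>
          |lin q.1 q.2 (fun _ => 1) z| := fun z =>
        (continuous_finsetSum _ fun i _ => continuous_const.mul (continuous_csp i z)).abs
      have c2 : ∀ z, Continuous fun q : Mat m × Vec m => |lin q.1 q.2 (mg q.1 q.2) z| := fun z =>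
        (continuous_finsetSum _ fun i _ => (continuous_mg i).mul (continuous_csp i z)).abs
      exact (((((continuous_finsetSum _ fun i _ =>
        (continuous_csp i x).mul (continuous_csp i y)).abs).add (c1 x)).add (c1 y)).add (c2 x)).add
          (c2 y)
    · rw [abs_pow, abs_of_nonneg (env_nonneg _ _ x y)]
      refine pow_le_pow_left₀ (env_nonneg _ _ x y) ?_ d
      have o := abs_ovl_le q.1 q.2 x y
      have a1 := fun z => abs_lin_le q.1 q.2 (a := fun _ => 1) (fun _ => by simp) z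
      have a2 := fun z => abs_lin_le q.1 q.2 (a := mg q.1 q.2) (abs_mg_le q.1 q.2) z
      unfold env ovl lin
      linarith [a1 x, a1 y, a2 x, a2 y]
  refine ⟨hint, ?_⟩
  have hB : ∀ {z : ℝ}, z ≤ (C * √(d * n)) ^ d → z ≤ (|C| * √(d * n)) ^ d := fun hz =>
    hz.trans ((le_abs_self _).trans_eq (by rw [abs_pow, abs_mul, abs_of_nonneg (Real.sqrt_nonneg _)]))
  calc pEv b n m τ (fun J u => envM J u d)
      ≤ pEv b n m τ (fun J u => 5 ^ d *
          (ovPair J u d + 2 * ovLin J u (fun _ => 1) d + 2 * ovLin J u (mg J u) d)) :=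
        integral_mono hint (((i1.add (i2.const_mul 2)).add (i3.const_mul 2)).const_mul _)
          fun g => envM_le_ov _ _ hd
    _ = 5 ^ d * (pEv b n m τ (fun J u => ovPair J u d) +
          2 * pEv b n m τ (fun J u => ovLin J u (fun _ => 1) d) +
          2 * pEv b n m τ (fun J u => ovLin J u (mg J u) d)) := by
        have s1 := integral_add (i1.add (i2.const_mul 2)) (i3.const_mul 2)
        have s2 := integral_add i1 (i2.const_mul 2)
        simp only [Pi.add_apply] at s1 s2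
        simp only [pEv]
        rw [integral_const_mul, s1, s2, integral_const_mul, integral_const_mul]
    _ ≤ 5 ^ d * (5 * (|C| * √(d * n)) ^ d) := by
        refine mul_le_mul_of_nonneg_left ?_ (by positivity)
        linarith [hB h1, hB h2, hB h3]
    _ ≤ (25 * |C| * √(d * n)) ^ d := by
        rw [show (25:ℝ) * |C| * √(d * n) = 5 * (5 * (|C| * √(d * n))) by ring, mul_pow 5,
          mul_pow 5 (|C| * √(d * n))]
        exact mul_le_mul_of_nonneg_left (mul_le_mul_of_nonneg_right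
          (le_self_pow₀ (by norm_num) (by omega)) (by positivity)) (by positivity)

/-- The moments of a quantity dominated by `c` times the `k`-th envelope moment. -/
lemma pEv_pow_le {b : ℝ} {D : ℝ} (hD : 0 ≤ D) (hM : ∀ n m d : ℕ, ∀ τ : ℝ,
      0 ≤ τ → 1 ≤ d → 0 < n → m ≤ n →
        Integrable (fun g : Idx m → ℝ => envM (plJ (b ^ 2 / n) g) (plU τ g) d) (gauss (Idx m)) ∧
        pEv b n m τ (fun J u => envM J u d) ≤ (D * √(d * n)) ^ d)
    {n m p k : ℕ} {τ c : ℝ} (hτ : 0 ≤ τ) (hn : 0 < n) (hm : m ≤ n) (hk : 1 ≤ k) (hc : 0 ≤ c)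
    {Q : Mat m → Vec m → ℝ} (h0 : ∀ J u, 0 ≤ Q J u) (hQ : ∀ J u, Q J u ≤ c * envM J u k) :
    pEv b n m τ (fun J u => Q J u ^ p) ≤ (c * (D * √k) ^ k * √((p:ℝ) * n) ^ k) ^ p := by
  rcases Nat.eq_zero_or_pos p with rfl | hp
  · simp [pEv]
  obtain ⟨hi, hb⟩ := hM n m (k * p) τ hτ (Nat.mul_pos hk hp) hn hm
  calc pEv b n m τ (fun J u => Q J u ^ p) ≤ pEv b n m τ (fun J u => c ^ p * envM J u (k * p)) := by
        refine integral_mono_of_nonneg (ae_of_all _ fun g => pow_nonneg (h0 _ _) p)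
          (hi.const_mul _) (ae_of_all _ fun g => ?_)
        refine (pow_le_pow_left₀ (h0 _ _) (hQ _ _) p).trans ?_
        rw [mul_pow]
        exact mul_le_mul_of_nonneg_left (envM_pow_le _ _ k p) (pow_nonneg hc p)
    _ ≤ c ^ p * (D * √((k * p : ℕ) * (n:ℝ))) ^ (k * p) := by
        rw [pEv, integral_const_mul]
        exact mul_le_mul_of_nonneg_left hb (pow_nonneg hc p)
    _ = _ := by
        rw [Nat.cast_mul, mul_assoc (k:ℝ), Real.sqrt_mul (Nat.cast_nonneg k), pow_mul, ← mul_pow,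
          mul_assoc c, ← mul_pow, mul_assoc]

lemma sqrt_pow_two {z : ℝ} (hz : 0 ≤ z) : √z ^ 2 = z := Real.sq_sqrt hz

lemma sqrt_pow_three {z : ℝ} (hz : 0 ≤ z) : √z ^ 3 = z * √z := by
  rw [pow_succ, Real.sq_sqrt hz]

lemma sqrt_pow_four {z : ℝ} (hz : 0 ≤ z) : √z ^ 4 = z ^ 2 := by
  rw [show (4:ℕ) = 2 * 2 from rfl, pow_mul, Real.sq_sqrt hz]

lemma sqrt_pow_five {z : ℝ} (hz : 0 ≤ z) : √z ^ 5 = z ^ 2 * √z := by
  rw [pow_succ, sqrt_pow_four hz]

lemma sqrt_pow_seven {z : ℝ} (hz : 0 ≤ z) : √z ^ 7 = z ^ 3 * √z := by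
  rw [pow_succ, show (6:ℕ) = 2 * 3 from rfl, pow_mul, Real.sq_sqrt hz]

theorem grow_of_center {b : ℝ} (h : CenterSpec b) : GrowSpec b := by
  obtain ⟨D, hD, hM⟩ := pEv_envM_le h
  set E := max ((D * √(2:ℕ)) ^ 2) ((D * √(3:ℕ)) ^ 3)
  refine ⟨E, fun n m p τ hτ hp hn hm => ?_⟩
  have hpn : (0:ℝ) ≤ (p:ℝ) * n := by positivity
  refine ⟨?_, ?_, ?_⟩
  · refine (pEv_pow_le hD hM hτ hn hm one_le_two zero_le_one (fun J u => ?_)
      fun J u => (sq2_cm2_le J u).trans_eq (one_mul _).symm).trans ?_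
    · exact sum_nonneg fun i _ => sum_nonneg fun j _ => sq_nonneg _
    · rw [one_mul, sqrt_pow_two hpn]
      gcongr
      exact le_max_left _ _
  · refine (pEv_pow_le hD hM (k := 3) hτ hn hm (by norm_num) zero_le_one (fun J u => ?_)
      fun J u => (sq3_cm3_le J u).trans_eq (one_mul _).symm).trans ?_
    · exact sum_nonneg fun i _ => sum_nonneg fun j _ => sum_nonneg fun k _ => sq_nonneg _
    · rw [one_mul, sqrt_pow_three hpn]
      gcongr
      exact le_max_right _ _
  · refine (pEv_pow_le hD hM (k := 3) hτ hn hm (by norm_num) zero_le_one (fun J u => ?_)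
      fun J u => (sq1_vv_le J u).trans_eq (one_mul _).symm).trans ?_
    · exact sum_nonneg fun i _ => sq_nonneg _
    · rw [one_mul, sqrt_pow_three hpn]
      gcongr
      exact le_max_right _ _

theorem crude_of_center {b : ℝ} (h : CenterSpec b) : CrudeSpec b := by
  obtain ⟨D, hD, hM⟩ := pEv_envM_le h
  intro p
  set G : ℕ → ℝ := fun k => 20 * (D * √(k:ℝ)) ^ k * √(p:ℝ) ^ k
  have hG : ∀ k, 0 ≤ G k := fun k => by positivity
  refine ⟨G 2 ^ p + G 3 ^ p + G 4 ^ p + G 5 ^ p + G 7 ^ p, fun n m τ hτ hn hm => ?_⟩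
  set C := G 2 ^ p + G 3 ^ p + G 4 ^ p + G 5 ^ p + G 7 ^ p with hC
  have key : ∀ {k : ℕ} {c : ℝ}, 1 ≤ k → 0 ≤ c → c ≤ 20 → G k ^ p ≤ C →
      ∀ {Q : Mat m → Vec m → ℝ}, (∀ J u, 0 ≤ Q J u) → (∀ J u, Q J u ≤ c * envM J u k) →
        pEv b n m τ (fun J u => Q J u ^ p) ≤ C * (√(n:ℝ) ^ k) ^ p := by
    intro k c hk hc hc20 hle Q h0 hQ
    refine (pEv_pow_le hD hM hτ hn hm hk hc h0 hQ).trans ?_
    rw [Real.sqrt_mul (Nat.cast_nonneg p), mul_pow (√(p:ℝ)), ← mul_assoc, mul_pow _ (√(n:ℝ) ^ k)]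
    refine mul_le_mul_of_nonneg_right (le_trans ?_ hle) (by positivity)
    simp only [G]
    gcongr
  have h2 := pow_nonneg (hG 2) p
  have h3 := pow_nonneg (hG 3) p
  have h4 := pow_nonneg (hG 4) p
  have h5 := pow_nonneg (hG 5) p
  have h7 := pow_nonneg (hG 7) p
  have hn0 : (0:ℝ) ≤ n := Nat.cast_nonneg n
  have e3 := sqrt_pow_three hn0
  have e5 := sqrt_pow_five hn0
  have e7 := sqrt_pow_seven hn0
  have e2 := sqrt_pow_two hn0
  have e4 := sqrt_pow_four hn0
  refine ⟨?_, ?_, ?_, ?_, ?_, ?_, ?_, ?_, ?_⟩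
  · rw [← e4]
    exact key (by norm_num) (by norm_num) (by norm_num) (by linarith)
      (fun J u => sum_nonneg fun i _ => sum_nonneg fun j _ => sum_nonneg fun k _ =>
        sum_nonneg fun l _ => sq_nonneg _) sq4_cm4_le
  · rw [← e3]
    exact key (c := 1) (by norm_num) zero_le_one (by norm_num) (by linarith)
      (fun J u => sum_nonneg fun i _ => sq_nonneg _)
      fun J u => (sq1_rowsum_le J u).trans_eq (one_mul _).symm
  · rw [← e4]
    exact key (c := 1) (by norm_num) zero_le_one (by norm_num) (by linarith)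
      (fun J u => sum_nonneg fun i _ => sum_nonneg fun j _ => sq_nonneg _)
      fun J u => (sq2_app_le J u (Or.inr rfl)).trans_eq (one_mul _).symm
  · rw [← e4]
    exact key (c := 1) (by norm_num) zero_le_one (by norm_num) (by linarith)
      (fun J u => sum_nonneg fun i _ => sum_nonneg fun j _ => sq_nonneg _)
      fun J u => (sq2_app_le J u (Or.inl rfl)).trans_eq (one_mul _).symm
  · rw [← e5]
    exact key (c := 1) (by norm_num) zero_le_one (by norm_num) (by linarith)
      (fun J u => sum_nonneg fun i _ => sq_nonneg _)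
      fun J u => by simpa using sq1_cm3_contract_le J u (Or.inr rfl)
  · rw [← e5]
    exact key (c := 1) (by norm_num) zero_le_one (by norm_num) (by linarith)
      (fun J u => sum_nonneg fun i _ => sq_nonneg _)
      fun J u => (sq1_cm3_contract_le J u (Or.inl rfl)).trans_eq (one_mul _).symm
  · rw [← e5]
    exact key (by norm_num) (by norm_num) (by norm_num) (by linarith)
      (fun J u => sum_nonneg fun i _ => sum_nonneg fun j _ => sum_nonneg fun k _ => sq_nonneg _)
      sq3_cm4_contract_le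
  · rw [← e7]
    exact key (by norm_num) (by norm_num) le_rfl (by linarith)
      (fun J u => sum_nonneg fun i _ => sq_nonneg _) sq1_cm4_contract_le
  · conv_rhs => rw [← e2]
    exact key (c := 1) (by norm_num) zero_le_one (by norm_num) (by linarith) mCm_nonneg
      fun J u => (mCm_le J u).trans_eq (one_mul _).symm

end Vale.Agent.P150.Weak.Crude
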