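import Vale.Agent.P150.Weak.Found.Deriv
import Vale.Agent.P150.Weak.Spec

/-!
The two-replica envelope: every squared norm of a contracted cumulant is a two-replica average
dominated by a power of the sum of the five basic centred overlaps.
-/

open MeasureTheory Finset

namespace Vale.Agent.P150.Weak.Crude

open Gap

variable {m : ℕ}

/-- The centred overlap of two replicas. -/
noncomputable def ovl (J : Mat m) (u : Vec m) (x y : Conf m) : ℝ :=
  ∑ i, csp J u i x * csp J u i y

/-- A centred linear statistic. -/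
noncomputable def lin (J : Mat m) (u : Vec m) (a : Vec m) (x : Conf m) : ℝ :=
  ∑ i, a i * csp J u i x

/-- The sum of the five basic overlaps of two replicas. -/
noncomputable def env (J : Mat m) (u : Vec m) (x y : Conf m) : ℝ :=
  |ovl J u x y| + |lin J u (fun _ => 1) x| + |lin J u (fun _ => 1) y| +
    |lin J u (mg J u) x| + |lin J u (mg J u) y|

/-- The moments of the envelope. -/
noncomputable def envM (J : Mat m) (u : Vec m) (d : ℕ) : ℝ :=
  ev J u fun x => ev J u fun y => env J u x y ^ d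

variable (J : Mat m) (u : Vec m)

lemma env_nonneg (x y : Conf m) : 0 ≤ env J u x y := by unfold env; positivity

lemma ovl_le (x y : Conf m) : |ovl J u x y| ≤ env J u x y := by
  unfold env
  linarith [abs_nonneg (lin J u (fun _ => 1) x), abs_nonneg (lin J u (fun _ => 1) y),
    abs_nonneg (lin J u (mg J u) x), abs_nonneg (lin J u (mg J u) y)]

lemma lin_one_left (x y : Conf m) : |lin J u (fun _ => 1) x| ≤ env J u x y := by
  unfold env
  linarith [abs_nonneg (ovl J u x y), abs_nonneg (lin J u (fun _ => 1) y),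
    abs_nonneg (lin J u (mg J u) x), abs_nonneg (lin J u (mg J u) y)]

lemma lin_one_right (x y : Conf m) : |lin J u (fun _ => 1) y| ≤ env J u x y := by
  unfold env
  linarith [abs_nonneg (ovl J u x y), abs_nonneg (lin J u (fun _ => 1) x),
    abs_nonneg (lin J u (mg J u) x), abs_nonneg (lin J u (mg J u) y)]

lemma lin_mg_left (x y : Conf m) : |lin J u (mg J u) x| ≤ env J u x y := by
  unfold env
  linarith [abs_nonneg (ovl J u x y), abs_nonneg (lin J u (fun _ => 1) x),
    abs_nonneg (lin J u (fun _ => 1) y), abs_nonneg (lin J u (mg J u) y)]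

lemma lin_mg_right (x y : Conf m) : |lin J u (mg J u) y| ≤ env J u x y := by
  unfold env
  linarith [abs_nonneg (ovl J u x y), abs_nonneg (lin J u (fun _ => 1) x),
    abs_nonneg (lin J u (fun _ => 1) y), abs_nonneg (lin J u (mg J u) x)]

lemma envM_nonneg (d : ℕ) : 0 ≤ envM J u d :=
  ev_nonneg fun x => ev_nonneg fun y => pow_nonneg (env_nonneg J u x y) d

lemma ev2_le {F : Conf m → Conf m → ℝ} {k : ℕ} (h : ∀ x y, |F x y| ≤ env J u x y ^ k) :
    (ev J u fun x => ev J u fun y => F x y) ≤ envM J u k :=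
  ev_mono J u fun x => ev_mono J u fun y => (le_abs_self _).trans (h x y)

/-- Powers of the envelope are positively correlated. -/
lemma envM_mul_le (a b : ℕ) : envM J u a * envM J u b ≤ envM J u (a + b) := by
  set P : Conf m × Conf m → ℝ := fun p => mu J u p.1 * mu J u p.2 with hP
  set W : Conf m × Conf m → ℝ := fun p => env J u p.1 p.2 with hW
  have e : ∀ d, envM J u d = ∑ p, P p * W p ^ d := fun d => by
    simp only [envM, ev, hP, hW, Fintype.sum_prod_type, mul_sum, mul_assoc]
  have h1 : ∑ p, P p = 1 := by simpa [envM, ev, sum_mu] using (e 0).symm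
  have hW0 : ∀ p, 0 ≤ W p := fun p => env_nonneg J u p.1 p.2
  have hP0 : ∀ p, 0 ≤ P p := fun p => (mul_pos (mu_pos J u _) (mu_pos J u _)).le
  have h0 : 0 ≤ ∑ p, ∑ q, P p * P q * ((W p ^ a - W q ^ a) * (W p ^ b - W q ^ b)) :=
    sum_nonneg fun p _ => sum_nonneg fun q _ => mul_nonneg (mul_nonneg (hP0 p) (hP0 q)) (by
      rcases le_total (W p) (W q) with h | h
      · exact mul_nonneg_of_nonpos_of_nonpos (sub_nonpos.2 (pow_le_pow_left₀ (hW0 p) h a))
          (sub_nonpos.2 (pow_le_pow_left₀ (hW0 p) h b))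
      · exact mul_nonneg (sub_nonneg.2 (pow_le_pow_left₀ (hW0 q) h a))
          (sub_nonneg.2 (pow_le_pow_left₀ (hW0 q) h b)))
  have e2 : ∑ p, ∑ q, P p * P q * ((W p ^ a - W q ^ a) * (W p ^ b - W q ^ b)) =
      2 * ((∑ p, P p) * ∑ p, P p * W p ^ (a + b)) -
        2 * ((∑ p, P p * W p ^ a) * ∑ p, P p * W p ^ b) := by
    have t : ∀ p q, P p * P q * ((W p ^ a - W q ^ a) * (W p ^ b - W q ^ b)) =
        P p * W p ^ (a + b) * P q - P p * W p ^ a * (P q * W q ^ b) -
          P p * W p ^ b * (P q * W q ^ a) + P p * (P q * W q ^ (a + b)) := fun p q => by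
      simp only [pow_add]; ring
    simp only [t, sum_add_distrib, sum_sub_distrib, ← mul_sum, ← sum_mul]
    ring
  rw [e2, h1, one_mul] at h0
  rw [e a, e b, e (a + b)]
  linarith

lemma envM_pow_le (k p : ℕ) : envM J u k ^ p ≤ envM J u (k * p) := by
  induction p with
  | zero => simp [envM, ev_const]
  | succ p ih =>
    rw [pow_succ, Nat.mul_succ]
    exact (mul_le_mul_of_nonneg_right ih (envM_nonneg J u k)).trans (envM_mul_le J u _ _)

lemma sq_ev (F : Conf m → ℝ) : ev J u F ^ 2 = ev J u fun x => ev J u fun y => F x * F y := by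
  simp only [ev_smul, ev_mul_const, sq]

lemma sum_sq1 (G : Conf m → ℝ) :
    ∑ i, (ev J u fun x => G x * csp J u i x) ^ 2 =
      ev J u fun x => ev J u fun y => G x * G y * ovl J u x y := by
  simp only [sq_ev, ← ev_sum]
  refine congrArg (ev J u) (funext fun x => congrArg (ev J u) (funext fun y => ?_))
  simp only [ovl, mul_sum]
  exact sum_congr rfl fun i _ => by ring

lemma sum_sq2 (G : Conf m → ℝ) :
    ∑ i, ∑ j, (ev J u fun x => G x * (csp J u i x * csp J u j x)) ^ 2 =
      ev J u fun x => ev J u fun y => G x * G y * ovl J u x y ^ 2 := by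
  simp only [sq_ev, ← ev_sum]
  refine congrArg (ev J u) (funext fun x => congrArg (ev J u) (funext fun y => ?_))
  simp only [ovl, sq, sum_mul_sum]
  simp only [mul_sum]
  exact sum_congr rfl fun i _ => sum_congr rfl fun j _ => by ring

lemma sum_sq3 (G : Conf m → ℝ) :
    ∑ i, ∑ j, ∑ k, (ev J u fun x => G x * (csp J u i x * csp J u j x * csp J u k x)) ^ 2 =
      ev J u fun x => ev J u fun y => G x * G y * ovl J u x y ^ 3 := by
  simp only [sq_ev, ← ev_sum]
  refine congrArg (ev J u) (funext fun x => congrArg (ev J u) (funext fun y => ?_))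
  simp only [ovl, pow_succ, pow_zero, one_mul, sum_mul, mul_sum]
  rw [sum_comm_cycle]
  exact sum_congr rfl fun i _ => sum_congr rfl fun j _ => sum_congr rfl fun k _ => by ring

lemma sum_sq4 :
    ∑ i, ∑ j, ∑ k, ∑ l,
      (ev J u fun x => csp J u i x * csp J u j x * csp J u k x * csp J u l x) ^ 2 =
      ev J u fun x => ev J u fun y => ovl J u x y ^ 4 := by
  simp only [sq_ev, ← ev_sum]
  refine congrArg (ev J u) (funext fun x => congrArg (ev J u) (funext fun y => ?_))
  simp only [ovl, pow_succ, pow_zero, one_mul, sum_mul, mul_sum]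
  exact sum_congr rfl fun i _ => sum_congr rfl fun j _ => sum_congr rfl fun k _ =>
    sum_congr rfl fun l _ => by ring

lemma cm2_contract (a : Vec m) (i : Fin m) :
    ∑ j, cm2 J u i j * a j = ev J u fun x => lin J u a x * csp J u i x := by
  simp only [cm2, lin, sum_mul, ev_sum, ← ev_mul_const]
  exact sum_congr rfl fun j _ => congrArg (ev J u) (funext fun x => by ring)

lemma cm2_row_sum (i : Fin m) :
    ∑ j, cm2 J u i j = ev J u fun x => lin J u (fun _ => 1) x * csp J u i x := by
  simpa using cm2_contract J u (fun _ => 1) i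

lemma app_cm3 (a : Vec m) (i j : Fin m) :
    app (cm3 J u) a i j = ev J u fun x => lin J u a x * (csp J u i x * csp J u j x) := by
  simp only [app, cm3, lin, sum_mul, ev_sum, ← ev_smul]
  exact sum_congr rfl fun k _ => congrArg (ev J u) (funext fun x => by ring)

lemma sq2_cm2_le : sq2 (cm2 J u) ≤ envM J u 2 := by
  have h := sum_sq2 J u fun _ => 1
  simp only [one_mul] at h
  rw [sq2]
  simp only [cm2, h]
  refine ev2_le J u fun x y => ?_
  rw [abs_pow]
  exact pow_le_pow_left₀ (abs_nonneg _) (ovl_le J u x y) 2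

lemma sq3_cm3_le : sq3 (cm3 J u) ≤ envM J u 3 := by
  have h := sum_sq3 J u fun _ => 1
  simp only [one_mul] at h
  simp only [sq3, sq2, cm3, h]
  refine ev2_le J u fun x y => ?_
  rw [abs_pow]
  exact pow_le_pow_left₀ (abs_nonneg _) (ovl_le J u x y) 3

lemma sq1_vv_le : sq1 (vv J u) ≤ envM J u 3 := by
  simp only [sq1, vv, cm2_contract, sum_sq1]
  refine ev2_le J u fun x y => ?_
  rw [abs_mul, abs_mul, show env J u x y ^ 3 = env J u x y * env J u x y * env J u x y by ring]
  have := env_nonneg J u x y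
  gcongr
  exacts [lin_mg_left J u x y, lin_mg_right J u x y, ovl_le J u x y]

lemma sq1_rowsum_le : sq1 (fun i => ∑ j, cm2 J u i j) ≤ envM J u 3 := by
  simp only [sq1, cm2_row_sum, sum_sq1]
  refine ev2_le J u fun x y => ?_
  rw [abs_mul, abs_mul, show env J u x y ^ 3 = env J u x y * env J u x y * env J u x y by ring]
  have := env_nonneg J u x y
  gcongr
  exacts [lin_one_left J u x y, lin_one_right J u x y, ovl_le J u x y]

lemma sq2_app_le {a : Vec m} (ha : a = mg J u ∨ a = fun _ => 1) :
    sq2 (app (cm3 J u) a) ≤ envM J u 4 := by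
  simp only [sq2, app_cm3, sum_sq2]
  refine ev2_le J u fun x y => ?_
  rw [abs_mul, abs_mul, abs_pow,
    show env J u x y ^ 4 = env J u x y * env J u x y * env J u x y ^ 2 by ring]
  have := env_nonneg J u x y
  rcases ha with rfl | rfl
  · gcongr
    exacts [lin_mg_left J u x y, lin_mg_right J u x y, ovl_le J u x y]
  · gcongr
    exacts [lin_one_left J u x y, lin_one_right J u x y, ovl_le J u x y]

lemma cm3_contract2 (a b : Vec m) (i : Fin m) :
    ∑ j, ∑ k, a j * b k * cm3 J u i j k =
      ev J u fun x => lin J u a x * lin J u b x * csp J u i x := by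
  simp only [cm3, lin, sum_mul_sum]
  simp only [sum_mul, ev_sum, ← ev_smul]
  exact sum_congr rfl fun j _ => sum_congr rfl fun k _ =>
    congrArg (ev J u) (funext fun x => by ring)

lemma sq1_cm3_contract_le {a : Vec m} (ha : a = mg J u ∨ a = fun _ => 1) :
    sq1 (fun i => ∑ j, ∑ k, a j * cm3 J u i j k) ≤ envM J u 5 := by
  have e : ∀ i, ∑ j, ∑ k, a j * cm3 J u i j k =
      ev J u fun x => lin J u a x * lin J u (fun _ => 1) x * csp J u i x := fun i => by
    simpa using cm3_contract2 J u a (fun _ => 1) i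
  simp only [sq1, e, sum_sq1]
  refine ev2_le J u fun x y => ?_
  rw [abs_mul, abs_mul, abs_mul, abs_mul, show env J u x y ^ 5 =
    env J u x y * env J u x y * (env J u x y * env J u x y) * env J u x y by ring]
  have := env_nonneg J u x y
  rcases ha with rfl | rfl
  · gcongr
    exacts [lin_mg_left J u x y, lin_one_left J u x y, lin_mg_right J u x y, lin_one_right J u x y,
      ovl_le J u x y]
  · gcongr
    exacts [lin_one_left J u x y, lin_one_left J u x y, lin_one_right J u x y,
      lin_one_right J u x y, ovl_le J u x y]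

lemma sq_four_le (a b c d : ℝ) : (a - b - c - d) ^ 2 ≤ 4 * (a ^ 2 + b ^ 2 + c ^ 2 + d ^ 2) := by
  nlinarith [sq_nonneg (a + b), sq_nonneg (a + c), sq_nonneg (a + d), sq_nonneg (b - c),
    sq_nonneg (b - d), sq_nonneg (c - d)]

lemma sq4_cm4_le : sq4 (cm4 J u) ≤ 16 * envM J u 4 := by
  have h4 := (sum_sq4 J u).trans_le (ev2_le J u (k := 4) fun x y => by
    rw [abs_pow]; exact pow_le_pow_left₀ (abs_nonneg _) (ovl_le J u x y) 4)
  have h2 : sq2 (cm2 J u) * sq2 (cm2 J u) ≤ envM J u 4 := by
    refine (mul_le_mul (sq2_cm2_le J u) (sq2_cm2_le J u) ?_ (envM_nonneg J u 2)).trans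
      (envM_mul_le J u 2 2)
    exact sum_nonneg fun i _ => sum_nonneg fun j _ => sq_nonneg _
  have hb : sq4 (cm4 J u) ≤ ∑ i, ∑ j, ∑ k, ∑ l,
      4 * ((ev J u fun x => csp J u i x * csp J u j x * csp J u k x * csp J u l x) ^ 2 +
        cm2 J u i j ^ 2 * cm2 J u k l ^ 2 + cm2 J u i k ^ 2 * cm2 J u j l ^ 2 +
        cm2 J u i l ^ 2 * cm2 J u j k ^ 2) := by
    simp only [sq4, sq2]
    refine sum_le_sum fun i _ => sum_le_sum fun j _ => sum_le_sum fun k _ => sum_le_sum fun l _ => ?_
    refine (sq_four_le _ _ _ _).trans (le_of_eq ?_)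
    ring
  refine hb.trans ?_
  simp only [← mul_sum, sum_add_distrib]
  have e1 : ∑ i, ∑ j, cm2 J u i j ^ 2 * ∑ k, ∑ l, cm2 J u k l ^ 2 =
      sq2 (cm2 J u) * sq2 (cm2 J u) := by simp only [sq2, ← sum_mul]
  have e2 : ∑ i, ∑ j, ∑ k, cm2 J u i k ^ 2 * ∑ l, cm2 J u j l ^ 2 =
      sq2 (cm2 J u) * sq2 (cm2 J u) := by
    simp only [sq2, ← sum_mul, ← mul_sum]
  have e3 : ∑ i, ∑ j, ∑ k, ∑ l, cm2 J u i l ^ 2 * cm2 J u j k ^ 2 =
      sq2 (cm2 J u) * sq2 (cm2 J u) := by
    simp only [sq2, ← sum_mul, ← mul_sum]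
  linarith

lemma sq3_cm4_contract_le :
    sq3 (fun i j k => ∑ l, cm4 J u l i j k) ≤ 16 * envM J u 5 := by
  set c := fun i => ∑ l, cm2 J u i l with hc
  have e : ∀ i j k, ∑ l, cm4 J u l i j k =
      (ev J u fun x => lin J u (fun _ => 1) x * (csp J u i x * csp J u j x * csp J u k x)) -
        c i * cm2 J u j k - c j * cm2 J u i k - c k * cm2 J u i j := fun i j k => by
    have hcT : ∀ a, ∑ l, cm2 J u l a = c a := fun a =>
      sum_congr rfl fun l _ => cm2_comm J u l a
    simp only [cm4, sum_sub_distrib, ← sum_mul, hcT, lin, one_mul]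
    congr 3
    rw [← ev_sum]
    refine congrArg (ev J u) (funext fun x => ?_)
    simp only [sum_mul]
    exact sum_congr rfl fun l _ => by ring
  have h3 := (sum_sq3 J u (lin J u fun _ => 1)).trans_le (ev2_le J u (k := 5) fun x y => by
    rw [abs_mul, abs_mul, abs_pow,
      show env J u x y ^ 5 = env J u x y * env J u x y * env J u x y ^ 3 by ring]
    have := env_nonneg J u x y
    gcongr
    exacts [lin_one_left J u x y, lin_one_right J u x y, ovl_le J u x y])
  have h2 : sq1 c * sq2 (cm2 J u) ≤ envM J u 5 := by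
    refine (mul_le_mul (sq1_rowsum_le J u) (sq2_cm2_le J u) ?_ (envM_nonneg J u 3)).trans
      (envM_mul_le J u 3 2)
    exact sum_nonneg fun i _ => sum_nonneg fun j _ => sq_nonneg _
  have hb : sq3 (fun i j k => ∑ l, cm4 J u l i j k) ≤ ∑ i, ∑ j, ∑ k,
      4 * ((ev J u fun x => lin J u (fun _ => 1) x *
          (csp J u i x * csp J u j x * csp J u k x)) ^ 2 +
        c i ^ 2 * cm2 J u j k ^ 2 + c j ^ 2 * cm2 J u i k ^ 2 + c k ^ 2 * cm2 J u i j ^ 2) := by
    simp only [sq3, sq2]
    refine sum_le_sum fun i _ => sum_le_sum fun j _ => sum_le_sum fun k _ => ?_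
    rw [e]
    refine (sq_four_le _ _ _ _).trans (le_of_eq ?_)
    ring
  refine hb.trans ?_
  simp only [← mul_sum, sum_add_distrib]
  have e1 : ∑ i, c i ^ 2 * ∑ j, ∑ k, cm2 J u j k ^ 2 = sq1 c * sq2 (cm2 J u) := by
    simp only [sq1, sq2, ← sum_mul]
  have e2 : ∑ i, ∑ j, c j ^ 2 * ∑ k, cm2 J u i k ^ 2 = sq1 c * sq2 (cm2 J u) := by
    simp only [sq1, sq2, ← sum_mul, ← mul_sum]
  have e3 : ∑ i, ∑ j, ∑ k, c k ^ 2 * cm2 J u i j ^ 2 = sq1 c * sq2 (cm2 J u) := by
    simp only [sq1, sq2, ← sum_mul, ← mul_sum]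
  linarith

lemma sq1_cm4_contract_le :
    sq1 (fun i => ∑ j, ∑ k, ∑ l, cm4 J u i j k l) ≤ 20 * envM J u 7 := by
  set c := fun i => ∑ l, cm2 J u i l with hc
  set L := lin J u fun _ => 1 with hL
  set V := ev J u fun x => L x * L x with hV
  have hcsum : ∑ k, ∑ l, cm2 J u k l = V := by
    simp only [cm2_row_sum, hV, hL, ← ev_sum, ← mul_sum]
    simp [lin]
  have e : ∀ i, ∑ j, ∑ k, ∑ l, cm4 J u i j k l =
      (ev J u fun x => L x * L x * L x * csp J u i x) - 3 * V * c i := fun i => by
    have t1 : ∑ j, ∑ k, ∑ l, (ev J u fun x =>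
        csp J u i x * csp J u j x * csp J u k x * csp J u l x) =
        ev J u fun x => L x * L x * L x * csp J u i x := by
      simp only [← ev_sum, hL, lin, one_mul]
      refine congrArg (ev J u) (funext fun x => ?_)
      simp only [← mul_sum, ← sum_mul]
      ring
    have t2 : ∑ j, ∑ k, ∑ l, cm2 J u i j * cm2 J u k l = c i * V := by
      simp only [← hcsum, hc, ← mul_sum, ← sum_mul]
    have t3 : ∑ j, ∑ k, ∑ l, cm2 J u i k * cm2 J u j l = c i * V := by
      simp only [← hcsum, hc, ← mul_sum, ← sum_mul]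
    have t4 : ∑ j, ∑ k, ∑ l, cm2 J u i l * cm2 J u j k = c i * V := by
      simp only [← hcsum, hc, ← mul_sum, ← sum_mul]
    simp only [cm4, sum_sub_distrib, t1, t2, t3, t4]
    ring
  have h1 := (sum_sq1 J u fun x => L x * L x * L x).trans_le (ev2_le J u (k := 7) fun x y => by
    rw [abs_mul, abs_mul, abs_mul, abs_mul, abs_mul, abs_mul, show env J u x y ^ 7 =
      env J u x y * env J u x y * env J u x y * (env J u x y * env J u x y * env J u x y) *
        env J u x y by ring]
    have := env_nonneg J u x y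
    gcongr
    exacts [lin_one_left J u x y, lin_one_left J u x y, lin_one_left J u x y,
      lin_one_right J u x y, lin_one_right J u x y, lin_one_right J u x y, ovl_le J u x y])
  have hV0 : 0 ≤ V := ev_nonneg fun x => mul_self_nonneg _
  have hVM : V ≤ envM J u 2 := by
    refine le_trans (le_of_eq ?_) (ev2_le J u (F := fun x _ => L x * L x) fun x y => by
      rw [abs_mul, sq]
      exact mul_le_mul (lin_one_left J u x y) (lin_one_left J u x y) (abs_nonneg _)
        (env_nonneg J u x y))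
    simp only [ev_const, hV]
  have h2 : V ^ 2 * sq1 c ≤ envM J u 7 := by
    rw [sq V]
    exact (mul_le_mul ((mul_le_mul hVM hVM hV0 (envM_nonneg J u 2)).trans (envM_mul_le J u 2 2))
      (sq1_rowsum_le J u) (sum_nonneg fun i _ => sq_nonneg _) (envM_nonneg J u 4)).trans
      (envM_mul_le J u 4 3)
  have hb : sq1 (fun i => ∑ j, ∑ k, ∑ l, cm4 J u i j k l) ≤
      2 * ∑ i, (ev J u fun x => L x * L x * L x * csp J u i x) ^ 2 + 18 * (V ^ 2 * sq1 c) := by
    simp only [sq1, mul_sum, ← sum_add_distrib]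
    refine sum_le_sum fun i _ => ?_
    rw [e]
    nlinarith [sq_nonneg ((ev J u fun x => L x * L x * L x * csp J u i x) + 3 * V * c i)]
  linarith

lemma mCm_eq : ∑ i, mg J u i * vv J u i = ev J u fun x => lin J u (mg J u) x * lin J u (mg J u) x := by
  simp only [vv, cm2_contract, ← ev_smul, ← ev_sum]
  refine congrArg (ev J u) (funext fun x => ?_)
  show _ = (∑ i, mg J u i * csp J u i x) * lin J u (mg J u) x
  rw [sum_mul]
  exact sum_congr rfl fun i _ => by ring

lemma mCm_nonneg : 0 ≤ ∑ i, mg J u i * vv J u i := by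
  rw [mCm_eq]; exact ev_nonneg fun x => mul_self_nonneg _

lemma mCm_le : ∑ i, mg J u i * vv J u i ≤ envM J u 2 := by
  rw [mCm_eq]
  refine le_trans (le_of_eq ?_)
    (ev2_le J u (F := fun x _ => lin J u (mg J u) x * lin J u (mg J u) x) fun x y => by
      rw [abs_mul, sq]
      exact mul_le_mul (lin_mg_left J u x y) (lin_mg_left J u x y) (abs_nonneg _)
        (env_nonneg J u x y))
  simp only [ev_const]

end Vale.Agent.P150.Weak.Crude
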